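import Vale.Agent.P071L.Final

open Set MeasureTheory Filter Topology

namespace Vale.Agent.Results.P071.HotSpots

open Vale.Agent.P071

theorem result (Ω : Set ℂ) (hopen : IsOpen Ω) (hbdd : Bornology.IsBounded Ω)
    (hsc : IsSimplyConnected Ω) (hL : HasLipschitzBoundary Ω) (u : ℂ → ℝ) (hu : IsNeumannEigen Ω u)
    (hc : ContinuousOn u (closure Ω)) (hne : ∃ x ∈ Ω, u x ≠ 0) :
    ∀ x ∈ Ω, fderiv ℝ u x ≠ 0 ∧ (∃ y ∈ frontier Ω, u y < u x) ∧ ∃ y ∈ frontier Ω, u x < u y := by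
  have hcrit := no_critical_pointL hopen hbdd hsc hL hu hc hne
  have hK : IsCompact (closure Ω) := hbdd.isCompact_closure
  intro x hx
  have hfr : ∀ y ∈ closure Ω, y ∉ Ω → y ∈ frontier Ω := fun y h1 h2 => by
    rw [hopen.frontier_eq]; exact ⟨h1, h2⟩
  have hn : ∀ y ∈ Ω, closure Ω ∈ 𝓝 y := fun y hy =>
    mem_of_superset (hopen.mem_nhds hy) subset_closure
  refine ⟨hcrit x hx, ?_, ?_⟩
  · obtain ⟨y, hy, hmin⟩ := hK.exists_isMinOn ⟨x, subset_closure hx⟩ hc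
    refine ⟨y, hfr y hy fun h => hcrit y h (hmin.isLocalMin (hn y h)).fderiv_eq_zero, ?_⟩
    refine lt_of_le_of_ne (hmin (subset_closure hx)) fun e => hcrit x hx ?_
    have : IsMinOn u (closure Ω) x := fun z hz => e ▸ hmin hz
    exact (this.isLocalMin (hn x hx)).fderiv_eq_zero
  · obtain ⟨y, hy, hmax⟩ := hK.exists_isMaxOn ⟨x, subset_closure hx⟩ hc
    refine ⟨y, hfr y hy fun h => hcrit y h (hmax.isLocalMax (hn y h)).fderiv_eq_zero, ?_⟩
    refine lt_of_le_of_ne (hmax (subset_closure hx)) fun e => hcrit x hx ?_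
    have : IsMaxOn u (closure Ω) x := fun z hz => e ▸ hmax hz
    exact (this.isLocalMax (hn x hx)).fderiv_eq_zero

end Vale.Agent.Results.P071.HotSpots
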